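import Vale.Agent.P159.TM.H312.FkgE
import Vale.Agent.P159.TM.H60.Clus

/-!
P159, T1, row A1: fatness of the clusters of one copy (no RSW), from the positive association, the
one-cluster decomposition and a conditional tail bound for the heights off the cluster.
-/

open Finset
open scoped ENNReal
open Vale.Agent.P159.T1.H897 Vale.Agent.P159.TM.H426 Vale.Agent.P159.TM.H60

set_option linter.unusedSectionVars false
set_option linter.unusedDecidableInType false

namespace Vale.Agent.P159.TM.H312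

variable {V E : Type*} [Fintype V] [DecidableEq V] [Fintype E] [DecidableEq E]

/-- `k` on `A`, `g` off `A` -/
def glue (A : Finset V) (k : V → ℤ) (g : {x // x ∉ A} → ℤ) : V → ℤ :=
  fun x => if hx : x ∈ A then k x else g ⟨x, hx⟩

omit [Fintype V] in
lemma glue_mem {A : Finset V} {k : V → ℤ} {g : {x // x ∉ A} → ℤ} {x : V} (hx : x ∈ A) :
    glue A k g x = k x := by
  unfold glue
  rw [dif_pos hx]

omit [Fintype V] in
lemma glue_not_mem {A : Finset V} {k : V → ℤ} {g : {x // x ∉ A} → ℤ} {x : V} (hx : x ∉ A) :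
    glue A k g x = g ⟨x, hx⟩ := by
  unfold glue
  rw [dif_neg hx]

/-- weight of the heights off `A` when `A` is a cluster -/
noncomputable def RW (s t : E → V) (w : E → ℤ → ℝ) (a : V → ℤ → ℝ) (A : Finset V)
    (h : V → ℤ) : ℝ≥0∞ :=
  (∏ e ∈ bdE s t A, ENNReal.ofReal (cl1 (w e) (h (s e)) (h (t e)))) *
    (∏ e ∈ outE s t A, ENNReal.ofReal (w e (h (t e) - h (s e)))) *
    ∏ x ∈ Aᶜ, ENNReal.ofReal (a x (h x))

/-- weight of the heights on `A` when `A` is the cluster of `u` -/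
noncomputable def IW (s t : E → V) (w : E → ℤ → ℝ) (a : V → ℤ → ℝ) (u : V) (A : Finset V)
    (h : V → ℤ) : ℝ≥0∞ :=
  ins s t (fun e => ENNReal.ofReal (op1 (w e) (h (s e)) (h (t e))))
      (fun e => ENNReal.ofReal (cl1 (w e) (h (s e)) (h (t e)))) u A *
    ∏ x ∈ A, ENNReal.ofReal (a x (h x))

lemma ofReal_W1 {s t : E → V} {w : E → ℤ → ℝ} (hw : ∀ e n, 0 ≤ w e n) {a : V → ℤ → ℝ}
    (ha : ∀ x n, 0 ≤ a x n) (h : V → ℤ) (S : Finset E) :
    ENNReal.ofReal (W1 s t w a h S) =
      (∏ e ∈ S, ENNReal.ofReal (op1 (w e) (h (s e)) (h (t e)))) *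
      (∏ e ∈ Sᶜ, ENNReal.ofReal (cl1 (w e) (h (s e)) (h (t e)))) *
      ∏ x, ENNReal.ofReal (a x (h x)) := by
  unfold W1
  rw [ENNReal.ofReal_mul (mul_nonneg (Finset.prod_nonneg fun e _ => op1_nonneg _ _ _)
      (Finset.prod_nonneg fun e _ => cl1_nonneg (hw e) _ _)),
    ENNReal.ofReal_mul (Finset.prod_nonneg fun e _ => op1_nonneg _ _ _),
    ENNReal.ofReal_prod_of_nonneg fun e _ => op1_nonneg _ _ _,
    ENNReal.ofReal_prod_of_nonneg fun e _ => cl1_nonneg (hw e) _ _,
    ENNReal.ofReal_prod_of_nonneg fun x _ => ha _ _]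

/-- decomposition over the cluster of `u` -/
theorem E1_clus {s t : E → V} {w : E → ℤ → ℝ} (hw : ∀ e n, 0 ≤ w e n) {a : V → ℤ → ℝ}
    (ha : ∀ x n, 0 ≤ a x n) (u : V) (Ψ : Finset V → (V → ℤ) → ℝ≥0∞) :
    E1 s t w a (fun h S => Ψ (clus s t S u) h) =
      ∑ A, ∑' h, IW s t w a u A h * RW s t w a A h * Ψ A h := by
  unfold E1
  have key : ∀ h : V → ℤ, ∑ S, ENNReal.ofReal (W1 s t w a h S) * Ψ (clus s t S u) h =
      ∑ A, IW s t w a u A h * RW s t w a A h * Ψ A h := by
    intro h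
    have h1 := one_cluster s t (fun e => ENNReal.ofReal (op1 (w e) (h (s e)) (h (t e))))
      (fun e => ENNReal.ofReal (cl1 (w e) (h (s e)) (h (t e)))) u (fun A => Ψ A h)
    have h2 : ∀ S : Finset E, ENNReal.ofReal (W1 s t w a h S) * Ψ (clus s t S u) h =
        (∏ x, ENNReal.ofReal (a x (h x))) *
        ((∏ e ∈ S, ENNReal.ofReal (op1 (w e) (h (s e)) (h (t e)))) *
          (∏ e ∈ Sᶜ, ENNReal.ofReal (cl1 (w e) (h (s e)) (h (t e)))) *
          Ψ (clus s t S u) h) := by
      intro S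
      rw [ofReal_W1 hw ha]
      ring
    rw [Finset.sum_congr rfl fun S _ => h2 S, ← Finset.mul_sum, h1, Finset.mul_sum]
    refine Finset.sum_congr rfl fun A _ => ?_
    have h3 : ∏ x, ENNReal.ofReal (a x (h x)) = (∏ x ∈ A, ENNReal.ofReal (a x (h x))) *
        ∏ x ∈ Aᶜ, ENNReal.ofReal (a x (h x)) := (Finset.prod_mul_prod_compl A _).symm
    have h4 : ∀ e, ENNReal.ofReal (op1 (w e) (h (s e)) (h (t e))) +
        ENNReal.ofReal (cl1 (w e) (h (s e)) (h (t e))) =
        ENNReal.ofReal (w e (h (t e) - h (s e))) := by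
      intro e
      rw [← ENNReal.ofReal_add (op1_nonneg _ _ _) (cl1_nonneg (hw e) _ _), op1_add_cl1]
    simp only [h4]
    rw [h3]
    unfold IW RW
    ring
  rw [tsum_congr key]
  have h5 := ENNReal.tsum_comm (f := fun (h : V → ℤ) (A : Finset V) =>
    IW s t w a u A h * RW s t w a A h * Ψ A h)
  simp only [tsum_fintype] at h5
  exact h5

/-- sums over the heights on `A` and off `A` -/
lemma tsum_glue (A : Finset V) (f : (V → ℤ) → ℝ≥0∞) :
    ∑' h, f h = ∑' k : {x // x ∈ A} → ℤ, ∑' g : {x // x ∉ A} → ℤ,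
      f (glue A (fun x => if hx : x ∈ A then k ⟨x, hx⟩ else 0) g) := by
  have h1 := (Equiv.piEquivPiSubtypeProd (fun x => x ∈ A) (fun _ : V => ℤ)).symm.tsum_eq f
  rw [← h1, ENNReal.tsum_prod']
  refine tsum_congr fun k => tsum_congr fun g => ?_
  congr 1
  funext x
  unfold glue
  by_cases hx : x ∈ A
  · simp [Equiv.piEquivPiSubtypeProd, hx]
  · simp [Equiv.piEquivPiSubtypeProd, hx]

omit [Fintype V] [DecidableEq V] [Fintype E] [DecidableEq E] in
/-- positivity along open edges -/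
lemma pos_conn {s t : E → V} {om : Finset E} {h : V → ℤ}
    (ho : ∀ e ∈ om, 0 < h (s e) * h (t e)) {u v : V} (hu : 0 < h u) (hc : Conn s t om u v) :
    0 < h v := by
  induction hc with
  | refl => exact hu
  | @tail y z _ h2 ih =>
    obtain ⟨e, he, h3⟩ := h2
    have h4 := ho e he
    rcases h3 with ⟨h5, h6⟩ | ⟨h5, h6⟩
    · rw [h5, h6] at h4
      exact (pos_iff_pos_of_mul_pos h4).1 ih
    · rw [h5, h6] at h4
      exact (pos_iff_pos_of_mul_pos h4).2 ih

/-- if the inner weight does not vanish then `A` is an open cluster, with positive heights if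
`h u > 0` -/
lemma IW_ne {s t : E → V} {w : E → ℤ → ℝ} (hw : ∀ e n, 0 ≤ w e n)
    (he : ∀ e n, w e (-n) = w e n) (hL : ∀ e, LogC (w e)) {a : V → ℤ → ℝ} {u : V}
    {A : Finset V} {h : V → ℤ} (hI : IW s t w a u A h ≠ 0) (hu : 0 < h u) :
    (∃ om, clus s t om u = A) ∧ ∀ x ∈ A, 0 < h x := by
  unfold IW at hI
  have h1 : ins s t (fun e => ENNReal.ofReal (op1 (w e) (h (s e)) (h (t e))))
      (fun e => ENNReal.ofReal (cl1 (w e) (h (s e)) (h (t e)))) u A ≠ 0 :=
    left_ne_zero_of_mul hI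
  unfold ins at h1
  obtain ⟨om, hom, h2⟩ := Finset.exists_ne_zero_of_sum_ne_zero h1
  rw [Finset.mem_filter] at hom
  have h3 := left_ne_zero_of_mul h2
  refine ⟨⟨om, hom.2⟩, fun x hx => ?_⟩
  refine pos_conn (s := s) (t := t) (om := om) (fun e hem => ?_) hu
    (mem_clus.1 (hom.2 ▸ hx : x ∈ clus s t om u))
  have h4 := Finset.prod_ne_zero_iff.1 h3 e hem
  refine op1_pos_sign (hw e) (he e) (hL e) (fun h0 => h4 ?_)
  show ENNReal.ofReal (op1 (w e) (h (s e)) (h (t e))) = 0
  rw [h0, ENNReal.ofReal_zero]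

/-- a tail bound off the cluster, uniform in the cluster -/
theorem tail_sum {s t : E → V} {w : E → ℤ → ℝ} (hw : ∀ e n, 0 ≤ w e n)
    (he : ∀ e n, w e (-n) = w e n) (hL : ∀ e, LogC (w e)) {a : V → ℤ → ℝ}
    (ha : ∀ x n, 0 ≤ a x n) (u : V) {Φ T : Finset V → (V → ℤ) → ℝ≥0∞} {c : ℝ≥0∞}
    (hloc : ∀ A h h', (∀ x ∈ A, h x = h' x) → Φ A h = Φ A h')
    (hpos : ∀ A h, Φ A h ≠ 0 → 0 < h u)
    (htail : ∀ A k, (∃ om, clus s t om u = A) → (∀ x ∈ A, 0 < k x) → Φ A k ≠ 0 →
      ∑' g, RW s t w a A (glue A k g) * T A (glue A k g) ≤ c * ∑' g, RW s t w a A (glue A k g)) :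
    E1 s t w a (fun h S => Φ (clus s t S u) h * T (clus s t S u) h) ≤
      c * E1 s t w a (fun h S => Φ (clus s t S u) h) := by
  rw [E1_clus hw ha u (fun A h => Φ A h * T A h), E1_clus hw ha u Φ, Finset.mul_sum]
  refine Finset.sum_le_sum fun A _ => ?_
  rw [tsum_glue A, tsum_glue A, ← ENNReal.tsum_mul_left]
  refine ENNReal.tsum_le_tsum fun k => ?_
  set k' : V → ℤ := fun x => if hx : x ∈ A then k ⟨x, hx⟩ else 0 with hk'
  have hg : ∀ g, ∀ x ∈ A, glue A k' g x = k' x := fun g x hx => glue_mem hx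
  have hIW : ∀ g, IW s t w a u A (glue A k' g) = IW s t w a u A k' := by
    intro g
    unfold IW
    congr 1
    · unfold ins
      refine Finset.sum_congr rfl fun om hom => ?_
      rw [Finset.mem_filter, Finset.mem_powerset] at hom
      congr 1
      · refine Finset.prod_congr rfl fun e hem => ?_
        have h1 := mem_inE.1 (hom.1 hem)
        beta_reduce
        rw [hg g _ h1.1, hg g _ h1.2]
      · refine Finset.prod_congr rfl fun e hem => ?_
        have h1 := mem_inE.1 (Finset.mem_sdiff.1 hem).1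
        beta_reduce
        rw [hg g _ h1.1, hg g _ h1.2]
    · exact Finset.prod_congr rfl fun x hx => by rw [hg g x hx]
  have hΦ : ∀ g, Φ A (glue A k' g) = Φ A k' := fun g => hloc A _ _ (hg g)
  have e1 : ∀ g, IW s t w a u A (glue A k' g) * RW s t w a A (glue A k' g) *
      (Φ A (glue A k' g) * T A (glue A k' g)) = (IW s t w a u A k' * Φ A k') *
      (RW s t w a A (glue A k' g) * T A (glue A k' g)) := by
    intro g
    rw [hIW, hΦ]
    ring
  have e2 : ∀ g, IW s t w a u A (glue A k' g) * RW s t w a A (glue A k' g) *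
      Φ A (glue A k' g) = (IW s t w a u A k' * Φ A k') * RW s t w a A (glue A k' g) := by
    intro g
    rw [hIW, hΦ]
    ring
  rw [tsum_congr e1, tsum_congr e2, ENNReal.tsum_mul_left, ENNReal.tsum_mul_left]
  by_cases h0 : IW s t w a u A k' * Φ A k' = 0
  · rw [h0, zero_mul, zero_mul, mul_zero]
  · have hI := left_ne_zero_of_mul h0
    have hP := right_ne_zero_of_mul h0
    obtain ⟨h1, h2⟩ := IW_ne hw he hL hI (hpos A k' hP)
    have h3 := htail A k' h1 h2 hP
    calc _ ≤ (IW s t w a u A k' * Φ A k') * (c * ∑' g, RW s t w a A (glue A k' g)) :=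
          mul_le_mul_right h3 _
      _ = _ := by ring

end Vale.Agent.P159.TM.H312
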