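import Vale.Agent.P159.TM.H312.Fat3
import Vale.Agent.P159.TM.H576.Fat

/-!
P159, T1, row A1: fatness of the clusters of one copy in the letters of `TM/H60/FK.lean` and
`TM/H576/Fat.lean`, for every increasing functional of the mass profile of the cluster.
-/

open Finset
open scoped ENNReal
open Vale.Agent.P159.T1.H897 Vale.Agent.P159.TM.H426 Vale.Agent.P159.TM.H60
open Vale.Agent.P159.TM.H576

set_option linter.unusedSectionVars false
set_option linter.unusedDecidableInType false

namespace Vale.Agent.P159.TM.H312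

variable {V E : Type*} [Fintype V] [DecidableEq V] [Fintype E] [DecidableEq E]

section
variable {s t : E → V} {w : E → ℤ → ℝ} {hw0 : ∀ e n, 0 ≤ w e n} {he : ∀ e n, w e (-n) = w e n}
  {hL : ∀ e, LogC (w e)} {a : V → ℤ → ℝ} {ha : ∀ x n, 0 ≤ a x n} {hae : ∀ x n, a x (-n) = a x n}

/-- the weight of 60 = the weight of 426 -/
lemma wt_eq (om : Finset E) (x : V → ℤ) :
    (one s t w hw0 he hL a ha hae).wt om x = W1 s t w a x om := by
  unfold Sys.wt W1
  congr 1
  congr 1
  · refine Finset.prod_congr rfl fun e _ => ?_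
    show max (w e (x (t e) - x (s e)) - w e (x (t e) - -x (s e))) 0 = _
    rw [sub_neg_eq_add]
    rfl
  · refine Finset.prod_congr rfl fun e _ => ?_
    show min (w e (x (t e) - x (s e))) (w e (x (t e) - -x (s e))) = _
    rw [sub_neg_eq_add]
    rfl

lemma Ex_eq (F : (V → ℤ) → Finset E → ℝ≥0∞) :
    Ex (one s t w hw0 he hL a ha hae) F = E1 s t w a F := by
  unfold Ex E1
  simp only [wt_eq]

end

/-- **A1 for one copy**: for every increasing functional `Γ` of the mass profile of the cluster of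
`u`. -/
theorem fatS {s t : E → V} {w : E → ℤ → ℝ} (hw : ∀ e n, 0 < w e n)
    (hw0 : ∀ e n, 0 ≤ w e n)
    (he : ∀ e n, w e (-n) = w e n) (hL : ∀ e, LogC (w e)) {a : V → ℤ → ℝ}
    (ha : ∀ x n, 0 ≤ a x n) (hae : ∀ x n, a x (-n) = a x n) (s0 : Summable (W1h s t w a))
    (B : Finset V) (u : V) {Γ : (V → ℕ) → ℝ≥0∞} (hΓ : Monotone Γ)
    (hΓ0 : ∀ m, m u = 0 → Γ m = 0) {H : ℝ} (hH : 0 < H) {p : ℝ≥0∞} (hp : p ≠ ⊤)
    (hPZ : p * Ex (one s t w hw0 he hL a ha hae) (fun _ _ => 1) ≤
      Ex (one s t w hw0 he hL a ha hae) (fun h _ => if H ≤ ∑ x ∈ B, (h x : ℝ) then 1 else 0))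
    (htail : ∀ (A : Finset V) (k : V → ℤ), (∃ om, clus s t om u = A) → (∀ x ∈ A, 0 < k x) →
      Γ (fun z => if z ∈ A then (k z).natAbs else 0) ≠ 0 →
      ∑' g, RW s t w a A (glue A k g) *
        (if H / 2 ≤ ∑ x ∈ B \ A, (glue A k g x : ℝ) then 1 else 0) ≤
      p / 2 * ∑' g, RW s t w a A (glue A k g))
    (hfin : Ex (one s t w hw0 he hL a ha hae)
      (fun x om => Γ (mf (one s t w hw0 he hL a ha hae) x om u)) ≠ ⊤) :
    p / 2 * ENNReal.ofReal (H / 2) * Ex (one s t w hw0 he hL a ha hae)
        (fun x om => Γ (mf (one s t w hw0 he hL a ha hae) x om u)) ≤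
      Ex (one s t w hw0 he hL a ha hae)
        (fun x om => Γ (mf (one s t w hw0 he hL a ha hae) x om u) *
          ∑ z ∈ B, (mf (one s t w hw0 he hL a ha hae) x om u z : ℝ≥0∞)) := by
  classical
  set σ := one s t w hw0 he hL a ha hae with hσ
  -- the positive functional
  set Φ : Finset V → (V → ℤ) → ℝ≥0∞ :=
    fun A h => Γ (fun z => if z ∈ A then (h z).toNat else 0) with hΦ
  have hmf : ∀ (x : V → ℤ) om, mf σ x om u =
      fun z => if z ∈ clus s t om u then (x z).natAbs else 0 := by
    intro x om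
    funext z
    rfl
  have hpospt : ∀ (x : V → ℤ) om, W1 s t w a x om ≠ 0 → 0 < x u →
      (fun z => if z ∈ clus s t om u then (x z).toNat else 0) = mf σ x om u := by
    intro x om h0 hu
    rw [hmf]
    funext z
    by_cases hz : z ∈ clus s t om u
    · rw [if_pos hz, if_pos hz]
      have := pos_of_clus (s := s) (t := t) hw0 he hL h0 hu hz
      omega
    · rw [if_neg hz, if_neg hz]
  have hnonpos : ∀ A (x : V → ℤ), ¬ 0 < x u → Φ A x = 0 := by
    intro A x hu
    simp only [hΦ]
    apply hΓ0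
    by_cases hz : u ∈ A
    · rw [if_pos hz]
      omega
    · rw [if_neg hz]
  have key1 : E1 s t w a (fun x om => ind (0 < x u) * Γ (mf σ x om u)) =
      E1 s t w a (fun x om => Φ (clus s t om u) x) := by
    refine E1_congr fun x om h0 => ?_
    by_cases hu : 0 < x u
    · rw [ind_true hu, one_mul, ← hpospt x om h0 hu]
    · rw [ind_false hu, zero_mul, hnonpos _ _ hu]
  have key2 : E1 s t w a (fun x om => Φ (clus s t om u) x *
        ENNReal.ofReal (∑ z ∈ B ∩ clus s t om u, (x z : ℝ))) ≤
      E1 s t w a (fun x om => ind (0 < x u) * (Γ (mf σ x om u) *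
        ∑ z ∈ B, (mf σ x om u z : ℝ≥0∞))) := by
    refine E1_mono fun x om h0 => ?_
    by_cases hu : 0 < x u
    · rw [ind_true hu, one_mul]
      refine mul_le_mul' ?_ ?_
      · simp only [hΦ]
        rw [hpospt x om h0 hu]
      · have h1 : ∑ z ∈ B, (mf σ x om u z : ℝ≥0∞) =
            ∑ z ∈ B ∩ clus s t om u, ENNReal.ofReal (x z : ℝ) := by
          rw [← Finset.filter_mem_eq_inter, Finset.sum_filter]
          refine Finset.sum_congr rfl fun z _ => ?_
          rw [hmf]
          by_cases hz : z ∈ clus s t om u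
          · simp only [if_pos hz]
            have h2 := pos_of_clus (s := s) (t := t) hw0 he hL h0 hu hz
            rw [← ENNReal.ofReal_natCast]
            congr 1
            have h3 : ((x z).natAbs : ℤ) = x z := Int.natAbs_of_nonneg h2.le
            have h4 : (((x z).natAbs : ℤ) : ℝ) = ((x z : ℤ) : ℝ) := congrArg _ h3
            rw [Int.cast_natCast] at h4
            exact h4
          · simp only [if_neg hz]
            simp
        rw [h1, ENNReal.ofReal_sum_of_nonneg]
        intro z hz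
        have h2 := pos_of_clus (s := s) (t := t) hw0 he hL h0 hu (Finset.mem_inter.1 hz).2
        exact_mod_cast h2.le
    · rw [hnonpos _ _ hu, zero_mul]
      exact zero_le
  have half1 : Ex σ (fun x om => Γ (mf σ x om u)) =
      2 * Ex σ (fun x om => ind (0 < σ.d (x u)) * Γ (mf σ x om u)) := by
    refine Ex_half u (fun x om h0 => ?_) (fun x om => ?_)
    · exact hΓ0 _ (mf_zero h0)
    · rw [mf_swap]
  have half2 : Ex σ (fun x om => Γ (mf σ x om u) * ∑ z ∈ B, (mf σ x om u z : ℝ≥0∞)) =
      2 * Ex σ (fun x om => ind (0 < σ.d (x u)) * (Γ (mf σ x om u) *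
        ∑ z ∈ B, (mf σ x om u z : ℝ≥0∞))) := by
    refine Ex_half u (fun x om h0 => ?_) (fun x om => ?_)
    · rw [hΓ0 _ (mf_zero h0), zero_mul]
    · simp only [mf_swap]
  have e1 : Ex σ (fun x om => ind (0 < σ.d (x u)) * Γ (mf σ x om u)) =
      E1 s t w a (fun x om => Φ (clus s t om u) x) := by
    rw [Ex_eq, ← key1]
    rfl
  have hfin' : E1 s t w a (fun x om => Φ (clus s t om u) x) ≠ ⊤ := by
    intro h
    apply hfin
    rw [half1, e1, h]
    simp
  rw [Ex_eq, Ex_eq] at hPZ
  have main := fat1 (Φ := Φ) hw he hL ha s0 B u hH hp ?_ ?_ ?_ hPZ ?_ hfin'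
  · rw [half1, half2, e1]
    calc p / 2 * ENNReal.ofReal (H / 2) * (2 * E1 s t w a (fun x om => Φ (clus s t om u) x))
        = 2 * (p / 2 * ENNReal.ofReal (H / 2) *
          E1 s t w a (fun x om => Φ (clus s t om u) x)) := by ring
      _ ≤ 2 * E1 s t w a (fun x om => ind (0 < x u) * (Γ (mf σ x om u) *
        ∑ z ∈ B, (mf σ x om u z : ℝ≥0∞))) := mul_le_mul_right (main.trans key2) _
      _ = _ := by
        rw [Ex_eq]
        rfl
  · intro A A' h h' hA hh
    simp only [hΦ]
    apply hΓ
    intro z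
    by_cases hz : z ∈ A
    · simp only [if_pos hz, if_pos (hA hz)]
      exact Int.toNat_le_toNat (hh z)
    · simp only [if_neg hz]
      exact Nat.zero_le _
  · intro A h h' hh
    simp only [hΦ]
    congr 1
    funext z
    by_cases hz : z ∈ A
    · rw [if_pos hz, if_pos hz, hh z hz]
    · rw [if_neg hz, if_neg hz]
  · intro A h hne
    by_contra hu
    exact hne (hnonpos A h hu)
  · intro A k hA hk hne
    refine htail A k hA hk ?_
    have : (fun z => if z ∈ A then (k z).natAbs else 0) =
        fun z => if z ∈ A then (k z).toNat else 0 := by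
      funext z
      by_cases hz : z ∈ A
      · rw [if_pos hz, if_pos hz]
        have := hk z hz
        omega
      · rw [if_neg hz, if_neg hz]
    rw [this]
    exact hne

end Vale.Agent.P159.TM.H312
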