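import Vale.Agent.P159.TM.H312.Fat

/-!
P159, T1, row A1: fatness of the clusters of one copy: the closing argument.
-/

open Finset
open scoped ENNReal
open Vale.Agent.P159.T1.H897 Vale.Agent.P159.TM.H426 Vale.Agent.P159.TM.H60

set_option linter.unusedSectionVars false
set_option linter.unusedDecidableInType false

namespace Vale.Agent.P159.TM.H312

variable {V E : Type*} [Fintype V] [DecidableEq V] [Fintype E] [DecidableEq E]

/-- exponential bound ⟹ tail bound off the cluster (Chernoff) -/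
theorem tail_of_exp {s t : E → V} {w : E → ℤ → ℝ} {a : V → ℤ → ℝ} {A B : Finset V} {k : V → ℤ}
    {θ H : ℝ} (hθ : 0 ≤ θ) {K c : ℝ≥0∞}
    (hexp : ∑' g, RW s t w a A (glue A k g) *
        ENNReal.ofReal (Real.exp (θ * ∑ x ∈ B \ A, (glue A k g x : ℝ))) ≤
      K * ∑' g, RW s t w a A (glue A k g))
    (hK : K ≤ c * ENNReal.ofReal (Real.exp (θ * (H / 2)))) :
    ∑' g, RW s t w a A (glue A k g) *
        (if H / 2 ≤ ∑ x ∈ B \ A, (glue A k g x : ℝ) then 1 else 0) ≤
      c * ∑' g, RW s t w a A (glue A k g) := by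
  set q : ℝ≥0∞ := ENNReal.ofReal (Real.exp (θ * (H / 2))) with hq
  have q0 : q ≠ 0 := by
    rw [hq, Ne, ENNReal.ofReal_eq_zero, not_le]
    exact Real.exp_pos _
  have qt : q ≠ ⊤ := ENNReal.ofReal_ne_top
  have h1 : q * ∑' g, RW s t w a A (glue A k g) *
        (if H / 2 ≤ ∑ x ∈ B \ A, (glue A k g x : ℝ) then 1 else 0) ≤
      ∑' g, RW s t w a A (glue A k g) *
        ENNReal.ofReal (Real.exp (θ * ∑ x ∈ B \ A, (glue A k g x : ℝ))) := by
    rw [← ENNReal.tsum_mul_left]
    refine ENNReal.tsum_le_tsum fun g => ?_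
    split_ifs with h
    · rw [mul_one, mul_comm]
      refine mul_le_mul_right (ENNReal.ofReal_le_ofReal (Real.exp_le_exp.2 ?_)) _
      exact mul_le_mul_of_nonneg_left h hθ
    · rw [mul_zero, mul_zero]
      exact zero_le
  have h2 : q * (∑' g, RW s t w a A (glue A k g) *
        (if H / 2 ≤ ∑ x ∈ B \ A, (glue A k g x : ℝ) then 1 else 0)) ≤
      q * (c * ∑' g, RW s t w a A (glue A k g)) := by
    refine h1.trans (hexp.trans ?_)
    calc K * ∑' g, RW s t w a A (glue A k g)
        ≤ (c * q) * ∑' g, RW s t w a A (glue A k g) := mul_le_mul_left hK _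
      _ = _ := by ring
  exact (ENNReal.mul_le_mul_iff_right q0 qt).1 h2

lemma E1_mono {s t : E → V} {w : E → ℤ → ℝ} {a : V → ℤ → ℝ} {F G : (V → ℤ) → Finset E → ℝ≥0∞}
    (h : ∀ x S, W1 s t w a x S ≠ 0 → F x S ≤ G x S) : E1 s t w a F ≤ E1 s t w a G := by
  refine ENNReal.tsum_le_tsum fun x => Finset.sum_le_sum fun S _ => ?_
  by_cases h0 : W1 s t w a x S = 0
  · rw [h0, ENNReal.ofReal_zero, zero_mul, zero_mul]
  · exact mul_le_mul_right (h x S h0) _

lemma E1_congr {s t : E → V} {w : E → ℤ → ℝ} {a : V → ℤ → ℝ} {F G : (V → ℤ) → Finset E → ℝ≥0∞}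
    (h : ∀ x S, W1 s t w a x S ≠ 0 → F x S = G x S) : E1 s t w a F = E1 s t w a G :=
  le_antisymm (E1_mono fun x S h0 => (h x S h0).le) (E1_mono fun x S h0 => (h x S h0).ge)

lemma E1_add {s t : E → V} {w : E → ℤ → ℝ} {a : V → ℤ → ℝ}
    (F G : (V → ℤ) → Finset E → ℝ≥0∞) :
    E1 s t w a (fun x S => F x S + G x S) = E1 s t w a F + E1 s t w a G := by
  unfold E1
  rw [← ENNReal.tsum_add]
  refine tsum_congr fun x => ?_
  rw [← Finset.sum_add_distrib]
  exact Finset.sum_congr rfl fun S _ => mul_add _ _ _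

lemma E1_const_mul {s t : E → V} {w : E → ℤ → ℝ} {a : V → ℤ → ℝ} (c : ℝ≥0∞)
    (F : (V → ℤ) → Finset E → ℝ≥0∞) :
    E1 s t w a (fun x S => c * F x S) = c * E1 s t w a F := by
  unfold E1
  rw [← ENNReal.tsum_mul_left]
  refine tsum_congr fun x => ?_
  rw [Finset.mul_sum]
  exact Finset.sum_congr rfl fun S _ => by ring

/-- the open cluster of a positive site uses only edges with positive ends -/
lemma clus_pos {s t : E → V} {w : E → ℤ → ℝ} (hw : ∀ e n, 0 ≤ w e n)
    (he : ∀ e n, w e (-n) = w e n) (hL : ∀ e, LogC (w e)) {a : V → ℤ → ℝ} {h : V → ℤ}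
    {S : Finset E} (h0 : W1 s t w a h S ≠ 0) {u : V} (hu : 0 < h u) :
    clus s t (S ∩ posE1 s t h) u = clus s t S u := by
  have ho : ∀ e ∈ S, 0 < h (s e) * h (t e) := by
    intro e hem
    refine op1_pos_sign (hw e) (he e) (hL e) (fun h1 => h0 ?_)
    unfold W1
    rw [Finset.prod_eq_zero hem h1, zero_mul, zero_mul]
  ext v
  rw [mem_clus, mem_clus]
  constructor
  · intro hc
    exact hc.mono Finset.inter_subset_left
  · intro hc
    induction hc with
    | refl => exact Conn.refl u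
    | @tail y z h1 h2 ih =>
      refine ih.trans (Relation.ReflTransGen.single ?_)
      have hy : 0 < h y := pos_conn ho hu h1
      obtain ⟨e, hem, h3⟩ := h2
      refine ⟨e, ?_, h3⟩
      rw [Finset.mem_inter]
      refine ⟨hem, ?_⟩
      unfold posE1
      rw [Finset.mem_filter]
      have h4 := ho e hem
      rcases h3 with ⟨h5, h6⟩ | ⟨h5, h6⟩
      · rw [h5, h6] at h4 ⊢
        exact ⟨Finset.mem_univ _, hy, (pos_iff_pos_of_mul_pos h4).1 hy⟩
      · rw [h5, h6] at h4 ⊢
        exact ⟨Finset.mem_univ _, (pos_iff_pos_of_mul_pos h4).2 hy, hy⟩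

lemma clus_mono {s t : E → V} {S S' : Finset E} (h : S ⊆ S') (u : V) :
    clus s t S u ⊆ clus s t S' u := by
  intro v hv
  rw [mem_clus] at hv ⊢
  exact hv.mono h

lemma pos_of_clus {s t : E → V} {w : E → ℤ → ℝ} (hw : ∀ e n, 0 ≤ w e n)
    (he : ∀ e n, w e (-n) = w e n) (hL : ∀ e, LogC (w e)) {a : V → ℤ → ℝ} {h : V → ℤ}
    {S : Finset E} (h0 : W1 s t w a h S ≠ 0) {u : V} (hu : 0 < h u) {v : V}
    (hv : v ∈ clus s t S u) : 0 < h v := by
  refine pos_conn (s := s) (t := t) (om := S) (fun e hem => ?_) hu (mem_clus.1 hv)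
  refine op1_pos_sign (hw e) (he e) (hL e) (fun h1 => h0 ?_)
  unfold W1
  rw [Finset.prod_eq_zero hem h1, zero_mul, zero_mul]

/-- **A1, positive form.** -/
theorem fat1 {s t : E → V} {w : E → ℤ → ℝ} (hw : ∀ e n, 0 < w e n)
    (he : ∀ e n, w e (-n) = w e n) (hL : ∀ e, LogC (w e)) {a : V → ℤ → ℝ}
    (ha : ∀ x n, 0 ≤ a x n) (s0 : Summable (W1h s t w a)) (B : Finset V) (u : V) {H : ℝ}
    (hH : 0 < H) {p : ℝ≥0∞} (hp : p ≠ ⊤) {Φ : Finset V → (V → ℤ) → ℝ≥0∞}
    (hmono : ∀ A A' h h', A ⊆ A' → h ≤ h' → Φ A h ≤ Φ A' h')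
    (hloc : ∀ A h h', (∀ x ∈ A, h x = h' x) → Φ A h = Φ A h')
    (hpos : ∀ A h, Φ A h ≠ 0 → 0 < h u)
    (hPZ : p * E1 s t w a (fun _ _ => 1) ≤
      E1 s t w a (fun h _ => if H ≤ ∑ x ∈ B, (h x : ℝ) then 1 else 0))
    (htail : ∀ A k, (∃ om, clus s t om u = A) → (∀ x ∈ A, 0 < k x) → Φ A k ≠ 0 →
      ∑' g, RW s t w a A (glue A k g) *
        (if H / 2 ≤ ∑ x ∈ B \ A, (glue A k g x : ℝ) then 1 else 0) ≤
      p / 2 * ∑' g, RW s t w a A (glue A k g))
    (hfin : E1 s t w a (fun h S => Φ (clus s t S u) h) ≠ ⊤) :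
    p / 2 * ENNReal.ofReal (H / 2) * E1 s t w a (fun h S => Φ (clus s t S u) h) ≤
      E1 s t w a (fun h S => Φ (clus s t S u) h *
        ENNReal.ofReal (∑ x ∈ B ∩ clus s t S u, (h x : ℝ))) := by
  classical
  have hw0 : ∀ e n, 0 ≤ w e n := fun e n => (hw e n).le
  set Z := E1 s t w a (fun _ _ => 1) with hZ
  set Y := E1 s t w a (fun h S => Φ (clus s t S u) h) with hY
  set F : (V → ℤ) → Finset E → ℝ≥0∞ :=
    fun h _ => if H ≤ ∑ x ∈ B, (h x : ℝ) then 1 else 0 with hF
  have Zt : Z ≠ ⊤ := by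
    rw [hZ]
    unfold E1
    simp only [mul_one]
    have : ∀ h, ∑ S, ENNReal.ofReal (W1 s t w a h S) = ENNReal.ofReal (W1h s t w a h) := by
      intro h
      rw [← ENNReal.ofReal_sum_of_nonneg fun S _ => W1_nonneg hw0 ha h S, sum_W1]
    rw [tsum_congr this, ← ENNReal.ofReal_tsum_of_nonneg _ s0]
    · exact ENNReal.ofReal_ne_top
    · intro h
      rw [← sum_W1]
      exact Finset.sum_nonneg fun S _ => W1_nonneg hw0 ha h S
  -- positive association
  have hfkg : E1 s t w a F * Y ≤ Z * E1 s t w a (fun h S => F h S * Φ (clus s t S u) h) := by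
    have h1 := fkg_one_E (s := s) (t := t) hw he hL ha s0 (F := F)
      (G := fun h S => Φ (clus s t S u) h) ?_ ?_
    · have e1 : E1 s t w a (fun h S => Φ (clus s t (S ∩ posE1 s t h) u) h) = Y := by
        refine E1_congr fun h S h0 => ?_
        by_cases hu : 0 < h u
        · rw [clus_pos hw0 he hL h0 hu]
        · have z : ∀ A, Φ A h = 0 := fun A => by
            by_contra hne
            exact hu (hpos A h hne)
          rw [z, z]
      have e2 : E1 s t w a (fun h S => F h (S ∩ posE1 s t h) *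
          Φ (clus s t (S ∩ posE1 s t h) u) h) =
          E1 s t w a (fun h S => F h S * Φ (clus s t S u) h) := by
        refine E1_congr fun h S h0 => ?_
        by_cases hu : 0 < h u
        · rw [clus_pos hw0 he hL h0 hu]
        · have z : ∀ A, Φ A h = 0 := fun A => by
            by_contra hne
            exact hu (hpos A h hne)
          simp only [z, mul_zero]
      rw [e1, e2] at h1
      exact h1
    · intro h h' S S' hh _
      simp only [hF]
      split_ifs with h1 h2
      · exact le_rfl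
      · exfalso
        apply h2
        refine h1.trans (Finset.sum_le_sum fun x _ => ?_)
        exact_mod_cast hh x
      · exact zero_le
      · exact le_rfl
    · intro h h' S S' hh hS
      exact hmono _ _ _ _ (clus_mono hS u) hh
  have h1 : Z * (p * Y) ≤ Z * E1 s t w a (fun h S => F h S * Φ (clus s t S u) h) := by
    calc Z * (p * Y) = (p * Z) * Y := by ring
      _ ≤ E1 s t w a F * Y := mul_le_mul_left hPZ _
      _ ≤ _ := hfkg
  -- pointwise bound
  have htl := tail_sum (s := s) (t := t) hw0 he hL ha u (Φ := Φ)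
    (T := fun A h => if H / 2 ≤ ∑ x ∈ B \ A, (h x : ℝ) then 1 else 0) (c := p / 2)
    hloc hpos htail
  have h2 : E1 s t w a (fun h S => F h S * Φ (clus s t S u) h) ≤
      p / 2 * Y + ENNReal.ofReal (2 / H) * E1 s t w a (fun h S => Φ (clus s t S u) h *
        ENNReal.ofReal (∑ x ∈ B ∩ clus s t S u, (h x : ℝ))) := by
    rw [← E1_const_mul (ENNReal.ofReal (2 / H))]
    refine le_trans ?_ (add_le_add_left htl _)
    rw [← E1_add]
    refine E1_mono fun h S _ => ?_
    set C := clus s t S u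
    simp only [hF]
    by_cases hB : H ≤ ∑ x ∈ B, (h x : ℝ)
    · rw [if_pos hB, one_mul]
      by_cases hC : H / 2 ≤ ∑ x ∈ B \ C, (h x : ℝ)
      · rw [if_pos hC, mul_one]
        exact le_self_add
      · rw [if_neg hC, mul_zero, zero_add]
        have hsum : ∑ x ∈ B ∩ C, (h x : ℝ) + ∑ x ∈ B \ C, (h x : ℝ) = ∑ x ∈ B, (h x : ℝ) :=
          Finset.sum_inter_add_sum_sdiff B C _
        have h3 : H / 2 ≤ ∑ x ∈ B ∩ C, (h x : ℝ) := by
          rw [not_le] at hC
          linarith
        have h4 : (1 : ℝ≥0∞) ≤ ENNReal.ofReal (2 / H) *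
            ENNReal.ofReal (∑ x ∈ B ∩ C, (h x : ℝ)) := by
          rw [← ENNReal.ofReal_mul (by positivity), ← ENNReal.ofReal_one]
          refine ENNReal.ofReal_le_ofReal ?_
          calc (1 : ℝ) = 2 / H * (H / 2) := by field_simp
            _ ≤ _ := mul_le_mul_of_nonneg_left h3 (by positivity)
        calc Φ C h = Φ C h * 1 := (mul_one _).symm
          _ ≤ Φ C h * (ENNReal.ofReal (2 / H) * ENNReal.ofReal (∑ x ∈ B ∩ C, (h x : ℝ))) :=
            mul_le_mul_right h4 _
          _ = _ := by ring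
    · rw [if_neg hB, zero_mul]
      exact zero_le
  have h3 : p * Y ≤ p / 2 * Y + ENNReal.ofReal (2 / H) *
      E1 s t w a (fun h S => Φ (clus s t S u) h *
        ENNReal.ofReal (∑ x ∈ B ∩ clus s t S u, (h x : ℝ))) := by
    by_cases hZ0 : Z = 0
    · have hY0 : Y = 0 := by
        rw [hZ] at hZ0
        unfold E1 at hZ0
        rw [ENNReal.tsum_eq_zero] at hZ0
        rw [hY]
        unfold E1
        rw [ENNReal.tsum_eq_zero]
        intro h
        have h5 := hZ0 h
        rw [Finset.sum_eq_zero_iff] at h5 ⊢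
        intro S hS
        have h6 := h5 S hS
        rw [mul_one] at h6
        rw [h6, zero_mul]
      rw [hY0, mul_zero]
      exact zero_le
    · exact ((ENNReal.mul_le_mul_iff_right hZ0 Zt).1 h1).trans h2
  have h4 : p / 2 * Y ≤ ENNReal.ofReal (2 / H) *
      E1 s t w a (fun h S => Φ (clus s t S u) h *
        ENNReal.ofReal (∑ x ∈ B ∩ clus s t S u, (h x : ℝ))) := by
    have e1 : p * Y = p / 2 * Y + p / 2 * Y := by
      rw [← add_mul, ENNReal.add_halves]
    rw [e1] at h3
    refine (ENNReal.add_le_add_iff_left ?_).1 h3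
    exact ENNReal.mul_ne_top (ENNReal.div_ne_top hp (by norm_num)) hfin
  calc p / 2 * ENNReal.ofReal (H / 2) * Y = ENNReal.ofReal (H / 2) * (p / 2 * Y) := by ring
    _ ≤ ENNReal.ofReal (H / 2) * (ENNReal.ofReal (2 / H) *
      E1 s t w a (fun h S => Φ (clus s t S u) h *
        ENNReal.ofReal (∑ x ∈ B ∩ clus s t S u, (h x : ℝ)))) := mul_le_mul_right h4 _
    _ = _ := by
      rw [← mul_assoc, ← ENNReal.ofReal_mul (by positivity)]
      rw [show H / 2 * (2 / H) = 1 by field_simp, ENNReal.ofReal_one, one_mul]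

/-! ### Paley-Zygmund -/

/-- second and fourth moments ⟹ probability of a large value (`m` invariant under an involution
which changes the sign of `X`) -/
theorem pz {ι : Type*} (m : ι → ℝ≥0∞) (X : ι → ℝ) (σ : ι ≃ ι) (hm : ∀ i, m (σ i) = m i)
    (hX : ∀ i, X (σ i) = -X i) {v K : ℝ} (hv : 0 < v) (hK : 0 < K) (hZ : ∑' i, m i ≠ ⊤)
    (h2 : ENNReal.ofReal v * ∑' i, m i ≤ ∑' i, m i * ENNReal.ofReal (X i ^ 2))
    (h4 : ∑' i, m i * ENNReal.ofReal (X i ^ 4) ≤ ENNReal.ofReal (K * v ^ 2) * ∑' i, m i) :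
    ENNReal.ofReal (1 / (8 * K)) * ∑' i, m i ≤
      ∑' i, m i * (if Real.sqrt (v / 2) ≤ X i then 1 else 0) := by
  set Z := ∑' i, m i with hZd
  set P := ∑' i, m i * (if Real.sqrt (v / 2) ≤ X i then 1 else 0) with hP
  have hneg : ∑' i, m i * (if Real.sqrt (v / 2) ≤ -X i then 1 else 0) = P := by
    rw [hP, ← σ.tsum_eq]
    refine tsum_congr fun i => ?_
    rw [hm, hX]
    simp
  have hpt : ∀ i, m i * ENNReal.ofReal (X i ^ 2) ≤
      ENNReal.ofReal (v / 2) * m i + (ENNReal.ofReal (1 / (4 * K * v)) *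
        (m i * ENNReal.ofReal (X i ^ 4)) + ENNReal.ofReal (K * v) *
        (m i * (if Real.sqrt (v / 2) ≤ X i then 1 else 0) +
          m i * (if Real.sqrt (v / 2) ≤ -X i then 1 else 0))) := by
    intro i
    have hkv : 0 < K * v := mul_pos hK hv
    by_cases hx : X i ^ 2 ≤ v / 2
    · refine le_trans ?_ le_self_add
      rw [mul_comm]
      exact mul_le_mul_left (ENNReal.ofReal_le_ofReal hx) _
    · rw [not_le] at hx
      have hsq : Real.sqrt (v / 2) ≤ |X i| := by
        rw [← Real.sqrt_sq_eq_abs]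
        exact Real.sqrt_le_sqrt hx.le
      have hone : m i ≤ m i * (if Real.sqrt (v / 2) ≤ X i then 1 else 0) +
          m i * (if Real.sqrt (v / 2) ≤ -X i then 1 else 0) := by
        rcases abs_cases (X i) with ⟨h, _⟩ | ⟨h, _⟩
        · rw [h] at hsq
          rw [if_pos hsq, mul_one]
          exact le_self_add
        · rw [h] at hsq
          rw [if_pos hsq, mul_one]
          exact le_add_self
      refine le_trans ?_ (le_add_self)
      have hr : X i ^ 2 ≤ 1 / (4 * K * v) * X i ^ 4 + K * v := by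
        have : 0 ≤ (X i ^ 2 / (2 * Real.sqrt (K * v)) - Real.sqrt (K * v)) ^ 2 := sq_nonneg _
        have hs : Real.sqrt (K * v) ^ 2 = K * v := Real.sq_sqrt hkv.le
        have hs0 : 0 < Real.sqrt (K * v) := Real.sqrt_pos.2 hkv
        have e : (X i ^ 2 / (2 * Real.sqrt (K * v)) - Real.sqrt (K * v)) ^ 2 =
            X i ^ 4 / (4 * Real.sqrt (K * v) ^ 2) - X i ^ 2 + Real.sqrt (K * v) ^ 2 := by
          field_simp
          ring
        rw [e, hs] at this
        have e2 : X i ^ 4 / (4 * (K * v)) = 1 / (4 * K * v) * X i ^ 4 := by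
          field_simp
        rw [e2] at this
        linarith
      calc m i * ENNReal.ofReal (X i ^ 2)
          ≤ m i * (ENNReal.ofReal (1 / (4 * K * v)) * ENNReal.ofReal (X i ^ 4) +
            ENNReal.ofReal (K * v)) := by
            refine mul_le_mul_right ?_ _
            rw [← ENNReal.ofReal_mul (by positivity), ← ENNReal.ofReal_add (by positivity) hkv.le]
            exact ENNReal.ofReal_le_ofReal hr
        _ = ENNReal.ofReal (1 / (4 * K * v)) * (m i * ENNReal.ofReal (X i ^ 4)) +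
            ENNReal.ofReal (K * v) * m i := by ring
        _ ≤ _ := add_le_add_right (mul_le_mul_right hone _) _
  have hsum : ∑' i, m i * ENNReal.ofReal (X i ^ 2) ≤
      ENNReal.ofReal (v / 2) * Z + (ENNReal.ofReal (1 / (4 * K * v)) *
        (ENNReal.ofReal (K * v ^ 2) * Z) + ENNReal.ofReal (K * v) * (P + P)) := by
    refine (ENNReal.tsum_le_tsum hpt).trans ?_
    rw [ENNReal.tsum_add, ENNReal.tsum_add, ENNReal.tsum_mul_left, ENNReal.tsum_mul_left,
      ENNReal.tsum_mul_left, ENNReal.tsum_add, hneg]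
    exact add_le_add_right (add_le_add_left (mul_le_mul_right h4 _) _) _
  have h5 := h2.trans hsum
  have e3 : ENNReal.ofReal (1 / (4 * K * v)) * (ENNReal.ofReal (K * v ^ 2) * Z) =
      ENNReal.ofReal (v / 4) * Z := by
    rw [← mul_assoc, ← ENNReal.ofReal_mul (by positivity)]
    congr 2
    field_simp
  rw [e3] at h5
  have e4 : ENNReal.ofReal v * Z = ENNReal.ofReal (v / 2) * Z +
      (ENNReal.ofReal (v / 4) * Z + ENNReal.ofReal (v / 4) * Z) := by
    rw [← add_mul, ← ENNReal.ofReal_add (by positivity) (by positivity), ← add_mul,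
      ← ENNReal.ofReal_add (by positivity) (by positivity)]
    congr 2
    ring
  rw [e4] at h5
  have h6 : ENNReal.ofReal (v / 4) * Z ≤ ENNReal.ofReal (K * v) * (P + P) := by
    have t1 : ENNReal.ofReal (v / 2) * Z ≠ ⊤ := ENNReal.mul_ne_top ENNReal.ofReal_ne_top hZ
    have t2 : ENNReal.ofReal (v / 4) * Z ≠ ⊤ := ENNReal.mul_ne_top ENNReal.ofReal_ne_top hZ
    exact (ENNReal.add_le_add_iff_left t2).1 ((ENNReal.add_le_add_iff_left t1).1 h5)
  calc ENNReal.ofReal (1 / (8 * K)) * Z
      = ENNReal.ofReal (1 / (2 * K * v)) * (ENNReal.ofReal (v / 4) * Z) := by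
        rw [← mul_assoc, ← ENNReal.ofReal_mul (by positivity)]
        congr 2
        field_simp
        ring
    _ ≤ ENNReal.ofReal (1 / (2 * K * v)) * (ENNReal.ofReal (K * v) * (P + P)) :=
        mul_le_mul_right h6 _
    _ = P := by
        have e5 : P + P = ENNReal.ofReal 2 * P := by
          rw [← two_mul]
          congr 1
          simp
        rw [e5, ← mul_assoc, ← mul_assoc, ← ENNReal.ofReal_mul (by positivity),
          ← ENNReal.ofReal_mul (by positivity)]
        rw [show 1 / (2 * K * v) * (K * v) * 2 = 1 by field_simp, ENNReal.ofReal_one, one_mul]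

end Vale.Agent.P159.TM.H312
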