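import Vale.Agent.P159.TM.H312.Fat2

/-!
P159, T1, row A1: fatness of the clusters of one copy, symmetric form.
-/

open Finset
open scoped ENNReal
open Vale.Agent.P159.T1.H897 Vale.Agent.P159.TM.H426 Vale.Agent.P159.TM.H60

set_option linter.unusedSectionVars false
set_option linter.unusedDecidableInType false

namespace Vale.Agent.P159.TM.H312

variable {V E : Type*} [Fintype V] [DecidableEq V] [Fintype E] [DecidableEq E]

lemma op1_neg {w : ℤ → ℝ} (he : ∀ n, w (-n) = w n) (p q : ℤ) : op1 w (-p) (-q) = op1 w p q := by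
  unfold op1
  rw [show -q - -p = -(q - p) by ring, show -q + -p = -(q + p) by ring, he, he]

lemma cl1_neg {w : ℤ → ℝ} (he : ∀ n, w (-n) = w n) (p q : ℤ) : cl1 w (-p) (-q) = cl1 w p q := by
  unfold cl1
  rw [show -q - -p = -(q - p) by ring, show -q + -p = -(q + p) by ring, he, he]

lemma W1_neg {s t : E → V} {w : E → ℤ → ℝ} (he : ∀ e n, w e (-n) = w e n) {a : V → ℤ → ℝ}
    (hae : ∀ x n, a x (-n) = a x n) (h : V → ℤ) (S : Finset E) :
    W1 s t w a (-h) S = W1 s t w a h S := by
  unfold W1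
  simp only [Pi.neg_apply]
  rw [Finset.prod_congr rfl fun e _ => op1_neg (he e) (h (s e)) (h (t e)),
    Finset.prod_congr rfl fun e _ => cl1_neg (he e) (h (s e)) (h (t e)),
    Finset.prod_congr rfl fun x _ => hae x (h x)]

lemma E1_neg {s t : E → V} {w : E → ℤ → ℝ} (he : ∀ e n, w e (-n) = w e n) {a : V → ℤ → ℝ}
    (hae : ∀ x n, a x (-n) = a x n) (F : (V → ℤ) → Finset E → ℝ≥0∞) :
    E1 s t w a (fun h S => F (-h) S) = E1 s t w a F := by
  unfold E1
  rw [← (Equiv.neg (V → ℤ)).tsum_eq]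
  refine tsum_congr fun h => Finset.sum_congr rfl fun S _ => ?_
  simp only [Equiv.neg_apply, neg_neg]
  rw [W1_neg he hae]

open Classical in
/-- the weight `h_u⁺ h_v⁺` on a cluster containing `u`, `v` with property `Q` -/
noncomputable def Ph (u v : V) (Q : Finset V → Prop) (A : Finset V) (h : V → ℤ) : ℝ≥0∞ :=
  if u ∈ A ∧ v ∈ A ∧ Q A then ENNReal.ofReal (max (h u : ℝ) 0 * max (h v : ℝ) 0) else 0

open Classical in
/-- the weight `|h_u| |h_v|` on a cluster containing `u`, `v` with property `Q` -/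
noncomputable def Pa (u v : V) (Q : Finset V → Prop) (A : Finset V) (h : V → ℤ) : ℝ≥0∞ :=
  if u ∈ A ∧ v ∈ A ∧ Q A then ENNReal.ofReal (|(h u : ℝ)| * |(h v : ℝ)|) else 0

lemma Ph_split {s t : E → V} {w : E → ℤ → ℝ} (hw : ∀ e n, 0 ≤ w e n)
    (he : ∀ e n, w e (-n) = w e n) (hL : ∀ e, LogC (w e)) {a : V → ℤ → ℝ}
    (hae : ∀ x n, a x (-n) = a x n) {u v : V} {Q : Finset V → Prop} {h : V → ℤ} {S : Finset E}
    (h0 : W1 s t w a h S ≠ 0) :
    Pa u v Q (clus s t S u) h = Ph u v Q (clus s t S u) h + Ph u v Q (clus s t S u) (-h) := by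
  classical
  unfold Pa Ph
  split_ifs with hc
  · rw [← ENNReal.ofReal_add (mul_nonneg (le_max_right _ _) (le_max_right _ _))
      (mul_nonneg (le_max_right _ _) (le_max_right _ _))]
    congr 1
    simp only [Pi.neg_apply, Int.cast_neg]
    rcases lt_trichotomy (h u) 0 with hu | hu | hu
    · have h1 : 0 < (-h) u := by simpa using hu
      have h2 : 0 < (-h) v := pos_of_clus (s := s) (t := t) hw he hL
        (by rw [W1_neg he hae]; exact h0) h1 hc.2.1
      have h3 : (h u : ℝ) < 0 := by exact_mod_cast hu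
      have h4 : (h v : ℝ) < 0 := by
        have : h v < 0 := by simpa using h2
        exact_mod_cast this
      rw [abs_of_neg h3, abs_of_neg h4, max_eq_right h3.le,
        max_eq_left (by linarith : (0 : ℝ) ≤ -(h u : ℝ)),
        max_eq_left (by linarith : (0 : ℝ) ≤ -(h v : ℝ))]
      ring
    · rw [hu]
      simp
    · have h2 : 0 < h v := pos_of_clus (s := s) (t := t) hw he hL h0 hu hc.2.1
      have h3 : (0 : ℝ) < h u := by exact_mod_cast hu
      have h4 : (0 : ℝ) < h v := by exact_mod_cast h2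
      rw [abs_of_pos h3, abs_of_pos h4, max_eq_left h3.le, max_eq_left h4.le,
        max_eq_right (by linarith : -(h u : ℝ) ≤ 0)]
      ring
  · rw [add_zero]

/-- **A1, symmetric form** (`fat1`, `fat2` of the decay recursion are sums of this over `u`, `v`). -/
theorem fat_abs {s t : E → V} {w : E → ℤ → ℝ} (hw : ∀ e n, 0 < w e n)
    (he : ∀ e n, w e (-n) = w e n) (hL : ∀ e, LogC (w e)) {a : V → ℤ → ℝ}
    (ha : ∀ x n, 0 ≤ a x n) (hae : ∀ x n, a x (-n) = a x n) (s0 : Summable (W1h s t w a))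
    (B : Finset V) (u v : V) {Q : Finset V → Prop} (hQ : ∀ A A', A ⊆ A' → Q A → Q A')
    {H : ℝ} (hH : 0 < H) {p : ℝ≥0∞} (hp : p ≠ ⊤)
    (hPZ : p * E1 s t w a (fun _ _ => 1) ≤
      E1 s t w a (fun h _ => if H ≤ ∑ x ∈ B, (h x : ℝ) then 1 else 0))
    (htail : ∀ A k, (∃ om, clus s t om u = A) → v ∈ A → Q A → (∀ x ∈ A, 0 < k x) →
      ∑' g, RW s t w a A (glue A k g) *
        (if H / 2 ≤ ∑ x ∈ B \ A, (glue A k g x : ℝ) then 1 else 0) ≤
      p / 2 * ∑' g, RW s t w a A (glue A k g))
    (hfin : E1 s t w a (fun h S => Pa u v Q (clus s t S u) h) ≠ ⊤) :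
    p / 2 * ENNReal.ofReal (H / 2) * E1 s t w a (fun h S => Pa u v Q (clus s t S u) h) ≤
      E1 s t w a (fun h S => Pa u v Q (clus s t S u) h *
        ENNReal.ofReal (∑ x ∈ B ∩ clus s t S u, |(h x : ℝ)|)) := by
  classical
  have hw0 : ∀ e n, 0 ≤ w e n := fun e n => (hw e n).le
  set Y := E1 s t w a (fun h S => Ph u v Q (clus s t S u) h) with hY
  set X := E1 s t w a (fun h S => Ph u v Q (clus s t S u) h *
        ENNReal.ofReal (∑ x ∈ B ∩ clus s t S u, (h x : ℝ))) with hX
  have hsum : E1 s t w a (fun h S => Pa u v Q (clus s t S u) h) = Y + Y := by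
    rw [hY]
    have e1 := E1_neg (s := s) (t := t) he hae (fun h S => Ph u v Q (clus s t S u) h)
    calc E1 s t w a (fun h S => Pa u v Q (clus s t S u) h)
        = E1 s t w a (fun h S => Ph u v Q (clus s t S u) h + Ph u v Q (clus s t S u) (-h)) :=
          E1_congr fun h S h0 => Ph_split hw0 he hL hae h0
      _ = E1 s t w a (fun h S => Ph u v Q (clus s t S u) h) +
          E1 s t w a (fun h S => Ph u v Q (clus s t S u) (-h)) := E1_add _ _
      _ = _ := by rw [e1]
  have hXX : X + X ≤ E1 s t w a (fun h S => Pa u v Q (clus s t S u) h *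
        ENNReal.ofReal (∑ x ∈ B ∩ clus s t S u, |(h x : ℝ)|)) := by
    have e1 := E1_neg (s := s) (t := t) he hae (fun h S => Ph u v Q (clus s t S u) h *
        ENNReal.ofReal (∑ x ∈ B ∩ clus s t S u, (h x : ℝ)))
    calc X + X = X + E1 s t w a (fun h S => Ph u v Q (clus s t S u) (-h) *
        ENNReal.ofReal (∑ x ∈ B ∩ clus s t S u, ((-h) x : ℝ))) := by
          rw [hX, e1]
      _ = E1 s t w a (fun h S => Ph u v Q (clus s t S u) h *
          ENNReal.ofReal (∑ x ∈ B ∩ clus s t S u, (h x : ℝ)) +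
          Ph u v Q (clus s t S u) (-h) *
          ENNReal.ofReal (∑ x ∈ B ∩ clus s t S u, ((-h) x : ℝ))) := by
          rw [hX, ← E1_add]
      _ ≤ _ := by
          refine E1_mono fun h S h0 => ?_
          rw [Ph_split hw0 he hL hae h0, add_mul]
          refine add_le_add (mul_le_mul_right (ENNReal.ofReal_le_ofReal ?_) _)
            (mul_le_mul_right (ENNReal.ofReal_le_ofReal ?_) _)
          · exact Finset.sum_le_sum fun x _ => le_abs_self _
          · refine Finset.sum_le_sum fun x _ => ?_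
            simp only [Pi.neg_apply, Int.cast_neg]
            exact neg_le_abs _
  have hYt : Y ≠ ⊤ := by
    intro h
    apply hfin
    rw [hsum, h]
    rfl
  have hmain : p / 2 * ENNReal.ofReal (H / 2) * Y ≤ X := by
    refine fat1 (Φ := Ph u v Q) hw he hL ha s0 B u hH hp ?_ ?_ ?_ hPZ ?_ hYt
    · intro A A' h h' hA hh
      unfold Ph
      by_cases hc : u ∈ A ∧ v ∈ A ∧ Q A
      · rw [if_pos hc, if_pos ⟨hA hc.1, hA hc.2.1, hQ _ _ hA hc.2.2⟩]
        refine ENNReal.ofReal_le_ofReal ?_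
        have hu : (h u : ℝ) ≤ h' u := by exact_mod_cast hh u
        have hv : (h v : ℝ) ≤ h' v := by exact_mod_cast hh v
        exact mul_le_mul (max_le_max_right _ hu) (max_le_max_right _ hv) (le_max_right _ _)
          (le_max_right _ _)
      · rw [if_neg hc]
        exact zero_le
    · intro A h h' hh
      unfold Ph
      by_cases hc : u ∈ A ∧ v ∈ A ∧ Q A
      · rw [if_pos hc, if_pos hc, hh u hc.1, hh v hc.2.1]
      · rw [if_neg hc, if_neg hc]
    · intro A h hne
      by_contra hu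
      apply hne
      unfold Ph
      split_ifs
      · have h3 : (h u : ℝ) ≤ 0 := by exact_mod_cast not_lt.1 hu
        rw [max_eq_right h3, zero_mul, ENNReal.ofReal_zero]
      · rfl
    · intro A k hA hk hne
      have hc : u ∈ A ∧ v ∈ A ∧ Q A := by
        by_contra hc
        apply hne
        unfold Ph
        rw [if_neg hc]
      exact htail A k hA hc.2.1 hc.2.2 hk
  calc p / 2 * ENNReal.ofReal (H / 2) * E1 s t w a (fun h S => Pa u v Q (clus s t S u) h)
      = p / 2 * ENNReal.ofReal (H / 2) * Y + p / 2 * ENNReal.ofReal (H / 2) * Y := by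
        rw [hsum, mul_add]
    _ ≤ X + X := add_le_add hmain hmain
    _ ≤ _ := hXX

end Vale.Agent.P159.TM.H312
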