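import Vale.Agent.P159.TM.H426.Fkg

/-!
P159, T1, rows A1 / B1 / E5: the positive association of 426 with values in `[0,∞]`
(no summability of the observables is needed).
-/

open Finset
open scoped ENNReal
open Vale.Agent.P159.T1.H897 Vale.Agent.P159.TM.H426

namespace Vale.Agent.P159.TM.H312

/-- monotone convergence for sums in `[0,∞]` -/
lemma tsum_iSup_mono {ι : Type*} {f : ℕ → ι → ℝ≥0∞} (hf : ∀ i, Monotone fun n => f n i) :
    ∑' i, ⨆ n, f n i = ⨆ n, ∑' i, f n i := by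
  simp only [ENNReal.tsum_eq_iSup_sum]
  rw [iSup_comm]
  refine iSup_congr fun T => ?_
  exact ENNReal.finsetSum_iSup_of_monotone hf

/-- truncation in `[0,∞]` -/
lemma iSup_min_nat (x : ℝ≥0∞) : ⨆ n : ℕ, min x (n : ℝ≥0∞) = x := by
  refine le_antisymm (iSup_le fun n => min_le_left _ _) ?_
  rcases eq_or_ne x ⊤ with h | h
  · subst h
    simp only [min_eq_right le_top]
    rw [ENNReal.iSup_natCast]
  · obtain ⟨n, hn⟩ := ENNReal.exists_nat_gt h
    refine le_iSup_of_le n ?_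
    rw [min_eq_left hn.le]

section gen

variable {L E : Type*} [Fintype E] [DecidableEq E] [Preorder L]

/-- From the real inequality for bounded increasing functions to `[0,∞]`. -/
theorem fkg_ennreal {W : L → Finset E → ℝ} (W0 : ∀ h S, 0 ≤ W h S) {P : L → Finset E}
    (s0 : Summable fun h => ∑ S, W h S)
    (hfkg : ∀ F G : L → Finset E → ℝ, (∀ h S, 0 ≤ F h S) → (∀ h S, 0 ≤ G h S) →
      (∀ h h' S S', h ≤ h' → S ⊆ S' → F h S ≤ F h' S') →
      (∀ h h' S S', h ≤ h' → S ⊆ S' → G h S ≤ G h' S') →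
      (Summable fun h => ∑ S, W h S * F h (S ∩ P h)) →
      (Summable fun h => ∑ S, W h S * G h (S ∩ P h)) →
      (Summable fun h => ∑ S, W h S * (F h (S ∩ P h) * G h (S ∩ P h))) →
      (∑' h, ∑ S, W h S * F h (S ∩ P h)) * (∑' h, ∑ S, W h S * G h (S ∩ P h)) ≤
        (∑' h, ∑ S, W h S) * ∑' h, ∑ S, W h S * (F h (S ∩ P h) * G h (S ∩ P h)))
    {F G : L → Finset E → ℝ≥0∞}
    (hF : ∀ h h' S S', h ≤ h' → S ⊆ S' → F h S ≤ F h' S')
    (hG : ∀ h h' S S', h ≤ h' → S ⊆ S' → G h S ≤ G h' S') :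
    (∑' h, ∑ S, ENNReal.ofReal (W h S) * F h (S ∩ P h)) *
        (∑' h, ∑ S, ENNReal.ofReal (W h S) * G h (S ∩ P h)) ≤
      (∑' h, ∑ S, ENNReal.ofReal (W h S)) *
        ∑' h, ∑ S, ENNReal.ofReal (W h S) * (F h (S ∩ P h) * G h (S ∩ P h)) := by
  classical
  -- truncated real versions
  set tr : (L → Finset E → ℝ≥0∞) → ℕ → L → Finset E → ℝ :=
    fun K n h S => (min (K h S) (n : ℝ≥0∞)).toReal with htr
  have tr0 : ∀ K n h S, 0 ≤ tr K n h S := fun K n h S => ENNReal.toReal_nonneg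
  have trn : ∀ K n h S, tr K n h S ≤ n := by
    intro K n h S
    have := ENNReal.toReal_mono (ENNReal.natCast_ne_top n)
      (min_le_right (K h S) (n : ℝ≥0∞))
    simpa [htr] using this
  have fin : ∀ (K : L → Finset E → ℝ≥0∞) (n : ℕ) h S, min (K h S) (n : ℝ≥0∞) ≠ ⊤ :=
    fun K n h S => ne_top_of_le_ne_top (ENNReal.natCast_ne_top n) (min_le_right _ _)
  have trm : ∀ K n, (∀ h h' S S', h ≤ h' → S ⊆ S' → K h S ≤ K h' S') →
      ∀ h h' S S', h ≤ h' → S ⊆ S' → tr K n h S ≤ tr K n h' S' := by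
    intro K n hK h h' S S' hh hS
    exact ENNReal.toReal_mono (fin K n h' S') (min_le_min_right _ (hK _ _ _ _ hh hS))
  have ofr : ∀ K n h S, ENNReal.ofReal (tr K n h S) = min (K h S) (n : ℝ≥0∞) := fun K n h S =>
    ENNReal.ofReal_toReal (fin K n h S)
  have sm : ∀ (D : L → Finset E → ℝ) (c : ℝ), (∀ h S, 0 ≤ D h S) → (∀ h S, D h S ≤ c) →
      Summable fun h => ∑ S, W h S * D h (S ∩ P h) := by
    intro D c D0 Dc
    refine Summable.of_nonneg_of_le
      (fun h => Finset.sum_nonneg fun S _ => mul_nonneg (W0 h S) (D0 _ _)) (fun h => ?_)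
      (s0.mul_right c)
    rw [Finset.sum_mul]
    exact Finset.sum_le_sum fun S _ => mul_le_mul_of_nonneg_left (Dc _ _) (W0 h S)
  have conv : ∀ (D : L → Finset E → ℝ), (∀ h S, 0 ≤ D h S) →
      (Summable fun h => ∑ S, W h S * D h (S ∩ P h)) →
      ENNReal.ofReal (∑' h, ∑ S, W h S * D h (S ∩ P h)) =
        ∑' h, ∑ S, ENNReal.ofReal (W h S) * ENNReal.ofReal (D h (S ∩ P h)) := by
    intro D D0 hs
    rw [ENNReal.ofReal_tsum_of_nonneg
      (fun h => Finset.sum_nonneg fun S _ => mul_nonneg (W0 h S) (D0 _ _)) hs]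
    refine tsum_congr fun h => ?_
    rw [ENNReal.ofReal_sum_of_nonneg fun S _ => mul_nonneg (W0 h S) (D0 _ _)]
    exact Finset.sum_congr rfl fun S _ => ENNReal.ofReal_mul (W0 h S)
  have conv0 : ENNReal.ofReal (∑' h, ∑ S, W h S) = ∑' h, ∑ S, ENNReal.ofReal (W h S) := by
    rw [ENNReal.ofReal_tsum_of_nonneg (fun h => Finset.sum_nonneg fun S _ => W0 h S) s0]
    exact tsum_congr fun h => ENNReal.ofReal_sum_of_nonneg fun S _ => W0 h S
  set A : ℕ → ℝ≥0∞ := fun n => ∑' h, ∑ S, ENNReal.ofReal (W h S) *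
    min (F h (S ∩ P h)) (n : ℝ≥0∞) with hA
  set B : ℕ → ℝ≥0∞ := fun n => ∑' h, ∑ S, ENNReal.ofReal (W h S) *
    min (G h (S ∩ P h)) (n : ℝ≥0∞) with hB
  set R : ℝ≥0∞ := (∑' h, ∑ S, ENNReal.ofReal (W h S)) *
        ∑' h, ∑ S, ENNReal.ofReal (W h S) * (F h (S ∩ P h) * G h (S ∩ P h)) with hR
  have minmono : ∀ x : ℝ≥0∞, Monotone fun n : ℕ => min x (n : ℝ≥0∞) := fun x m n hmn =>
    min_le_min_left _ (by exact_mod_cast hmn)
  have Amono : Monotone A := by
    intro m n hmn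
    refine ENNReal.tsum_le_tsum fun h => Finset.sum_le_sum fun S _ => ?_
    exact mul_le_mul_right (minmono _ hmn) _
  have Bmono : Monotone B := by
    intro m n hmn
    refine ENNReal.tsum_le_tsum fun h => Finset.sum_le_sum fun S _ => ?_
    exact mul_le_mul_right (minmono _ hmn) _
  have step : ∀ n, A n * B n ≤ R := by
    intro n
    have hFn := tr0 F n
    have hGn := tr0 G n
    have sF := sm (tr F n) n hFn (trn F n)
    have sG := sm (tr G n) n hGn (trn G n)
    have sFG := sm (fun h S => tr F n h S * tr G n h S) ((n : ℝ) * n)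
      (fun h S => mul_nonneg (hFn h S) (hGn h S))
      (fun h S => mul_le_mul (trn F n h S) (trn G n h S) (hGn h S) (by positivity))
    have h1 := hfkg (tr F n) (tr G n) hFn hGn (trm F n hF) (trm G n hG) sF sG sFG
    have h2 := ENNReal.ofReal_le_ofReal h1
    rw [ENNReal.ofReal_mul (tsum_nonneg fun h => Finset.sum_nonneg fun S _ =>
        mul_nonneg (W0 h S) (hFn _ _)),
      ENNReal.ofReal_mul (tsum_nonneg fun h => Finset.sum_nonneg fun S _ => W0 h S),
      conv _ hFn sF, conv _ hGn sG, conv0,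
      conv (fun h S => tr F n h S * tr G n h S)
        (fun h S => mul_nonneg (hFn h S) (hGn h S)) sFG] at h2
    simp only [ofr] at h2
    refine h2.trans ?_
    refine mul_le_mul_right ?_ _
    refine ENNReal.tsum_le_tsum fun h => Finset.sum_le_sum fun S _ => ?_
    refine mul_le_mul_right ?_ _
    rw [ENNReal.ofReal_mul (hFn _ _), ofr, ofr]
    exact mul_le_mul' (min_le_left _ _) (min_le_left _ _)
  have supA : ⨆ n, A n = ∑' h, ∑ S, ENNReal.ofReal (W h S) * F h (S ∩ P h) := by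
    simp only [hA]
    rw [← tsum_iSup_mono]
    · refine tsum_congr fun h => ?_
      rw [← ENNReal.finsetSum_iSup_of_monotone]
      · refine Finset.sum_congr rfl fun S _ => ?_
        rw [← ENNReal.mul_iSup, iSup_min_nat]
      · intro S m n hmn
        exact mul_le_mul_right (minmono _ hmn) _
    · intro h m n hmn
      exact Finset.sum_le_sum fun S _ => mul_le_mul_right (minmono _ hmn) _
  have supB : ⨆ n, B n = ∑' h, ∑ S, ENNReal.ofReal (W h S) * G h (S ∩ P h) := by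
    simp only [hB]
    rw [← tsum_iSup_mono]
    · refine tsum_congr fun h => ?_
      rw [← ENNReal.finsetSum_iSup_of_monotone]
      · refine Finset.sum_congr rfl fun S _ => ?_
        rw [← ENNReal.mul_iSup, iSup_min_nat]
      · intro S m n hmn
        exact mul_le_mul_right (minmono _ hmn) _
    · intro h m n hmn
      exact Finset.sum_le_sum fun S _ => mul_le_mul_right (minmono _ hmn) _
  rw [← supA, ← supB, ENNReal.iSup_mul]
  refine iSup_le fun m => ?_
  rw [ENNReal.mul_iSup]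
  refine iSup_le fun n => ?_
  exact (mul_le_mul' (Amono (le_max_left m n)) (Bmono (le_max_right m n))).trans
    (step (max m n))

end gen

section copies

variable {V E : Type*} [Fintype V] [Fintype E] [DecidableEq E]

omit [Fintype V] in
lemma W1_nonneg [Fintype V] {s t : E → V} {w : E → ℤ → ℝ} (hw : ∀ e n, 0 ≤ w e n) {a : V → ℤ → ℝ}
    (ha : ∀ x n, 0 ≤ a x n) (h : V → ℤ) (S : Finset E) : 0 ≤ W1 s t w a h S :=
  mul_nonneg (mul_nonneg (Finset.prod_nonneg fun e _ => op1_nonneg _ _ _)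
    (Finset.prod_nonneg fun e _ => cl1_nonneg (hw e) _ _)) (Finset.prod_nonneg fun x _ => ha _ _)

lemma sum_W1 (s t : E → V) (w : E → ℤ → ℝ) (a : V → ℤ → ℝ) (h : V → ℤ) :
    ∑ S, W1 s t w a h S = W1h s t w a h := by
  have := sum_wb (fun e h => op1 (w e) (h (s e)) (h (t e)))
    (fun e h => cl1 (w e) (h (s e)) (h (t e))) (fun h : V → ℤ => ∏ x, a x (h x)) h
  have e1 : ∀ S, W1 s t w a h S = wb (fun e h => op1 (w e) (h (s e)) (h (t e)))
    (fun e h => cl1 (w e) (h (s e)) (h (t e))) (fun h : V → ℤ => ∏ x, a x (h x)) h S :=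
    fun S => rfl
  rw [Finset.sum_congr rfl fun S _ => e1 S, this]
  unfold wh W1h
  congr 1
  exact Finset.prod_congr rfl fun e _ => op1_add_cl1 _ _ _

/-- unnormalised expectation of `F h S` in one copy -/
noncomputable def E1 (s t : E → V) (w : E → ℤ → ℝ) (a : V → ℤ → ℝ)
    (F : (V → ℤ) → Finset E → ℝ≥0∞) : ℝ≥0∞ :=
  ∑' h, ∑ S, ENNReal.ofReal (W1 s t w a h S) * F h S

/-- **positive association of `(h, ω⁺)`** for one copy, in `[0,∞]` -/
theorem fkg_one_E {s t : E → V} {w : E → ℤ → ℝ} (hw : ∀ e n, 0 < w e n)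
    (he : ∀ e n, w e (-n) = w e n) (hL : ∀ e, LogC (w e)) {a : V → ℤ → ℝ}
    (ha : ∀ x n, 0 ≤ a x n) (s0 : Summable (W1h s t w a))
    {F G : (V → ℤ) → Finset E → ℝ≥0∞}
    (hF : ∀ h h' S S', h ≤ h' → S ⊆ S' → F h S ≤ F h' S')
    (hG : ∀ h h' S S', h ≤ h' → S ⊆ S' → G h S ≤ G h' S') :
    E1 s t w a (fun h S => F h (S ∩ posE1 s t h)) *
        E1 s t w a (fun h S => G h (S ∩ posE1 s t h)) ≤
      E1 s t w a (fun _ _ => 1) *
        E1 s t w a (fun h S => F h (S ∩ posE1 s t h) * G h (S ∩ posE1 s t h)) := by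
  unfold E1
  simp only [mul_one]
  refine fkg_ennreal (fun h S => W1_nonneg (fun e n => (hw e n).le) ha h S)
    (P := posE1 s t) ?_ ?_ hF hG
  · simp only [sum_W1]
    exact s0
  · intro F' G' F0 G0 hF' hG' sF sG sFG
    have := fkg_one hw he hL ha F0 G0 hF' hG' s0 sF sG sFG
    simp only [sum_W1]
    exact this

end copies

end Vale.Agent.P159.TM.H312
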