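import Vale.Agent.P159.TM.H60.Arm
import Vale.Agent.P159.TM.H352.Em
import Vale.Agent.P159.TM.H77.FatTor

/-!
Row R6b: moments of `<β, h - h'>` for two copies from the moments of `<β, h>` for one copy
(helper312).
-/

open scoped ENNReal
open Finset

set_option linter.unusedSectionVars false
set_option linter.unusedDecidableInType false

namespace Vale.Agent.P159.TM.H312.TwoOne

open Vale.Agent.P159.TM.H60 Vale.Agent.P159.TM.H576 Vale.Agent.P159.TM.H426

section abs

variable {V E : Type*} [Fintype V] [DecidableEq V] [Fintype E] [DecidableEq E]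
  {s t : E → V} {w : E → ℤ → ℝ} {hw0 : ∀ e n, 0 ≤ w e n} {hw : ∀ e, T1.H897.LogC (w e)}
  {a : V → ℤ → ℝ} {ha : ∀ v n, 0 ≤ a v n}

/-- the linear functional -/
noncomputable def lf (β : V → ℝ) (h : V → ℤ) : ℝ := ∑ v, β v * (h v : ℝ)

lemma W1h_nonneg (hw0 : ∀ e n, 0 ≤ w e n) (ha : ∀ v n, 0 ≤ a v n) (h : V → ℤ) :
    0 ≤ W1h s t w a h :=
  mul_nonneg (prod_nonneg fun e _ => hw0 e _) (prod_nonneg fun x _ => ha x _)

lemma W1h_neg (he : ∀ e n, w e (-n) = w e n) (hae : ∀ v n, a v (-n) = a v n) (h : V → ℤ) :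
    W1h s t w a (-h) = W1h s t w a h := by
  unfold W1h
  congr 1
  · refine prod_congr rfl fun e _ => ?_
    rw [← he]
    congr 1
    simp only [Pi.neg_apply]
    ring
  · refine prod_congr rfl fun v _ => ?_
    rw [← hae]
    simp

/-- functions of the two configurations -/
theorem Ex_two (F : (V → ℤ) → (V → ℤ) → ℝ≥0∞) :
    Ex (two s t w hw0 hw a ha) (fun x _ => F (fun v => (x v).1) fun v => (x v).2) =
      ∑' h, ∑' h', ENNReal.ofReal (W1h s t w a h) * ENNReal.ofReal (W1h s t w a h') * F h h' := by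
  rw [H352.Ex_conf (σ := two s t w hw0 hw a ha)
    (F := fun x => F (fun v => (x v).1) fun v => (x v).2)]
  rw [← ENNReal.tsum_prod' (f := fun p : (V → ℤ) × (V → ℤ) =>
    ENNReal.ofReal (W1h s t w a p.1) * ENNReal.ofReal (W1h s t w a p.2) * F p.1 p.2)]
  rw [← (Equiv.arrowProdEquivProdArrow V (fun _ => ℤ) (fun _ => ℤ)).tsum_eq
    (fun p : (V → ℤ) × (V → ℤ) =>
    ENNReal.ofReal (W1h s t w a p.1) * ENNReal.ofReal (W1h s t w a p.2) * F p.1 p.2)]
  refine tsum_congr fun x => ?_
  have e1 : (two s t w hw0 hw a ha).tot x = W1h s t w a (fun v => (x v).1) *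
      W1h s t w a (fun v => (x v).2) := by
    unfold Sys.tot W1h two
    simp only [prod_mul_distrib]
    ring
  rw [e1, ENNReal.ofReal_mul (W1h_nonneg hw0 ha _)]
  rfl

/-- the normalisation -/
theorem Ex_two_one : Ex (two s t w hw0 hw a ha) (fun _ _ => 1) =
    (∑' h, ENNReal.ofReal (W1h s t w a h)) * ∑' h, ENNReal.ofReal (W1h s t w a h) := by
  have h := Ex_two (s := s) (t := t) (w := w) (hw0 := hw0) (hw := hw) (a := a) (ha := ha)
    (fun _ _ => (1 : ℝ≥0∞))
  rw [h]
  simp only [mul_one]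
  rw [← ENNReal.tsum_mul_right]
  exact tsum_congr fun h => ENNReal.tsum_mul_left

lemma pr_two (β : V → ℝ) (x : V → ℤ × ℤ) : (two s t w hw0 hw a ha).pr β univ x =
    lf β (fun v => (x v).1) - lf β fun v => (x v).2 := by
  unfold Sys.pr lf Sys.D two
  rw [← sum_sub_distrib]
  refine sum_congr rfl fun v _ => ?_
  push_cast
  ring

lemma lf_neg (β : V → ℝ) (h : V → ℤ) : lf β (-h) = -lf β h := by
  unfold lf
  rw [← sum_neg_distrib]
  exact sum_congr rfl fun v _ => by simp

/-- **second moment** -/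
theorem two_sq (he : ∀ e n, w e (-n) = w e n) (hae : ∀ v n, a v (-n) = a v n) (β : V → ℝ) :
    Ex (two s t w hw0 hw a ha)
      (fun x _ => ENNReal.ofReal (((two s t w hw0 hw a ha).pr β univ x) ^ 2)) =
      2 * ((∑' h, ENNReal.ofReal (W1h s t w a h)) *
        ∑' h, ENNReal.ofReal (W1h s t w a h) * ENNReal.ofReal (lf β h ^ 2)) := by
  set p : (V → ℤ) → ℝ≥0∞ := fun h => ENNReal.ofReal (W1h s t w a h) with hp
  have pn : ∀ h, p (-h) = p h := fun h => by rw [hp]; simp only [W1h_neg he hae]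
  have e1 : Ex (two s t w hw0 hw a ha)
      (fun x _ => ENNReal.ofReal (((two s t w hw0 hw a ha).pr β univ x) ^ 2)) =
      ∑' h, ∑' h', p h * p h' * ENNReal.ofReal ((lf β h - lf β h') ^ 2) := by
    rw [← Ex_two (s := s) (t := t) (w := w) (hw0 := hw0) (hw := hw) (a := a) (ha := ha)
      (fun h h' => ENNReal.ofReal ((lf β h - lf β h') ^ 2))]
    congr 1
    funext x om
    rw [pr_two]
  have e2 : ∑' h, ∑' h', p h * p h' * ENNReal.ofReal ((lf β h - lf β h') ^ 2) =
      ∑' h, ∑' h', p h * p h' * ENNReal.ofReal ((lf β h + lf β h') ^ 2) := by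
    refine tsum_congr fun h => ?_
    rw [← (Equiv.neg (V → ℤ)).tsum_eq
      (fun h' => p h * p h' * ENNReal.ofReal ((lf β h - lf β h') ^ 2))]
    refine tsum_congr fun h' => ?_
    rw [Equiv.neg_apply, pn, lf_neg, sub_neg_eq_add]
  have e3 : ∀ h h', p h * p h' * ENNReal.ofReal ((lf β h - lf β h') ^ 2) +
      p h * p h' * ENNReal.ofReal ((lf β h + lf β h') ^ 2) =
      2 * (p h' * (p h * ENNReal.ofReal (lf β h ^ 2)) +
        p h * (p h' * ENNReal.ofReal (lf β h' ^ 2))) := by
    intro h h'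
    rw [← mul_add, ← ENNReal.ofReal_add (sq_nonneg _) (sq_nonneg _)]
    have : (lf β h - lf β h') ^ 2 + (lf β h + lf β h') ^ 2 = 2 * (lf β h ^ 2 + lf β h' ^ 2) := by
      ring
    rw [this, ENNReal.ofReal_mul (by norm_num), ENNReal.ofReal_add (sq_nonneg _) (sq_nonneg _),
      ENNReal.ofReal_ofNat]
    ring
  have e4 : 2 * (∑' h, ∑' h', p h * p h' * ENNReal.ofReal ((lf β h - lf β h') ^ 2)) =
      2 * (2 * ((∑' h, p h) * ∑' h, p h * ENNReal.ofReal (lf β h ^ 2))) := by
    calc 2 * (∑' h, ∑' h', p h * p h' * ENNReal.ofReal ((lf β h - lf β h') ^ 2))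
        = (∑' h, ∑' h', p h * p h' * ENNReal.ofReal ((lf β h - lf β h') ^ 2)) +
          ∑' h, ∑' h', p h * p h' * ENNReal.ofReal ((lf β h + lf β h') ^ 2) := by
          rw [← e2, two_mul]
      _ = ∑' h, ∑' h', (2 * (p h' * (p h * ENNReal.ofReal (lf β h ^ 2)) +
            p h * (p h' * ENNReal.ofReal (lf β h' ^ 2)))) := by
          rw [← ENNReal.tsum_add]
          refine tsum_congr fun h => ?_
          rw [← ENNReal.tsum_add]
          exact tsum_congr fun h' => e3 h h'
      _ = 2 * ((∑' h, ∑' h', p h' * (p h * ENNReal.ofReal (lf β h ^ 2))) +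
            ∑' h, ∑' h', p h * (p h' * ENNReal.ofReal (lf β h' ^ 2))) := by
          rw [← ENNReal.tsum_add, ← ENNReal.tsum_mul_left]
          refine tsum_congr fun h => ?_
          rw [← ENNReal.tsum_add, ← ENNReal.tsum_mul_left]
      _ = 2 * (2 * ((∑' h, p h) * ∑' h, p h * ENNReal.ofReal (lf β h ^ 2))) := by
          congr 1
          rw [two_mul]
          congr 1
          · rw [← ENNReal.tsum_mul_left]
            exact tsum_congr fun h => ENNReal.tsum_mul_right
          · rw [← ENNReal.tsum_mul_right]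
            exact tsum_congr fun h => ENNReal.tsum_mul_left
  rw [e1]
  exact (ENNReal.mul_right_inj (by norm_num) (by norm_num)).1 e4

/-- **fourth moment** -/
theorem two_four (β : V → ℝ) :
    Ex (two s t w hw0 hw a ha)
      (fun x _ => ENNReal.ofReal (((two s t w hw0 hw a ha).pr β univ x) ^ 4)) ≤
      16 * ((∑' h, ENNReal.ofReal (W1h s t w a h)) *
        ∑' h, ENNReal.ofReal (W1h s t w a h) * ENNReal.ofReal (lf β h ^ 4)) := by
  set p : (V → ℤ) → ℝ≥0∞ := fun h => ENNReal.ofReal (W1h s t w a h) with hp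
  have e1 : Ex (two s t w hw0 hw a ha)
      (fun x _ => ENNReal.ofReal (((two s t w hw0 hw a ha).pr β univ x) ^ 4)) =
      ∑' h, ∑' h', p h * p h' * ENNReal.ofReal ((lf β h - lf β h') ^ 4) := by
    rw [← Ex_two (s := s) (t := t) (w := w) (hw0 := hw0) (hw := hw) (a := a) (ha := ha)
      (fun h h' => ENNReal.ofReal ((lf β h - lf β h') ^ 4))]
    congr 1
    funext x om
    rw [pr_two]
  have e3 : ∀ h h', p h * p h' * ENNReal.ofReal ((lf β h - lf β h') ^ 4) ≤
      8 * (p h' * (p h * ENNReal.ofReal (lf β h ^ 4)) +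
        p h * (p h' * ENNReal.ofReal (lf β h' ^ 4))) := by
    intro h h'
    have h1 : (lf β h - lf β h') ^ 4 ≤ 8 * (lf β h ^ 4 + lf β h' ^ 4) := by
      nlinarith [sq_nonneg (lf β h + lf β h'), sq_nonneg (lf β h ^ 2 - lf β h' ^ 2),
        sq_nonneg ((lf β h + lf β h') ^ 2 - 0), sq_nonneg (lf β h * lf β h'),
        sq_nonneg (lf β h ^ 2 + 2 * lf β h * lf β h' + lf β h' ^ 2),
        sq_nonneg (lf β h - lf β h'),
        mul_nonneg (sq_nonneg (lf β h + lf β h')) (sq_nonneg (lf β h)),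
        mul_nonneg (sq_nonneg (lf β h + lf β h')) (sq_nonneg (lf β h')),
        mul_nonneg (sq_nonneg (lf β h + lf β h')) (sq_nonneg (lf β h - lf β h'))]
    calc p h * p h' * ENNReal.ofReal ((lf β h - lf β h') ^ 4)
        ≤ p h * p h' * ENNReal.ofReal (8 * (lf β h ^ 4 + lf β h' ^ 4)) :=
          mul_le_mul_right (ENNReal.ofReal_le_ofReal h1) _
      _ = 8 * (p h' * (p h * ENNReal.ofReal (lf β h ^ 4)) +
        p h * (p h' * ENNReal.ofReal (lf β h' ^ 4))) := by
          rw [ENNReal.ofReal_mul (by norm_num), ENNReal.ofReal_add (by positivity) (by positivity),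
            ENNReal.ofReal_ofNat]
          ring
  rw [e1]
  calc ∑' h, ∑' h', p h * p h' * ENNReal.ofReal ((lf β h - lf β h') ^ 4)
      ≤ ∑' h, ∑' h', (8 * (p h' * (p h * ENNReal.ofReal (lf β h ^ 4)) +
            p h * (p h' * ENNReal.ofReal (lf β h' ^ 4)))) :=
        ENNReal.tsum_le_tsum fun h => ENNReal.tsum_le_tsum fun h' => e3 h h'
    _ = 8 * ((∑' h, ∑' h', p h' * (p h * ENNReal.ofReal (lf β h ^ 4))) +
            ∑' h, ∑' h', p h * (p h' * ENNReal.ofReal (lf β h' ^ 4))) := by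
          rw [← ENNReal.tsum_add, ← ENNReal.tsum_mul_left]
          refine tsum_congr fun h => ?_
          rw [← ENNReal.tsum_add, ← ENNReal.tsum_mul_left]
    _ = 8 * (2 * ((∑' h, p h) * ∑' h, p h * ENNReal.ofReal (lf β h ^ 4))) := by
          congr 1
          rw [two_mul]
          congr 1
          · rw [← ENNReal.tsum_mul_left]
            exact tsum_congr fun h => ENNReal.tsum_mul_right
          · rw [← ENNReal.tsum_mul_right]
            exact tsum_congr fun h => ENNReal.tsum_mul_left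
    _ = 16 * ((∑' h, p h) * ∑' h, p h * ENNReal.ofReal (lf β h ^ 4)) := by
          rw [← mul_assoc]
          norm_num

end abs

end Vale.Agent.P159.TM.H312.TwoOne
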